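import Vale.Agent.H47.Howie.Abelian
import Vale.Agent.H47.Howie.Tower

/-!
# Howie's conjecture: a criterion, a closure property and a class of groups, in one statement

For every group `G`:

1. every nonsingular finite system of equations over `G` is solvable over `G` if and only if the
   same holds over every finitely generated subgroup `H` of `G` that admits no nontrivial
   homomorphism to `ℤ`;
2. if `N` is a normal subgroup of `G` such that `G ⧸ N` is locally indicable and every nonsingular
   finite system over `N` is solvable over `N`, then every nonsingular finite system over `G` is
   solvable over `G`;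
3. if every finitely generated subgroup of `G` is abelian or admits a surjective homomorphism
   onto `ℤ`, then every nonsingular finite system over `G` is solvable over `G`.

This is the conjunction of the three statements proved separately in this folder
(`A_FgNoMapToZCriterion`, `A_ExtLocallyIndicable`, `A_AbelianOrIndicable`).
-/

namespace Vale.Agent.Results.P174.A0_CriterionAndClasses

open Vale.Agent.H47.Howie

universe u

theorem result :
    ∀ (G : Type u) [Group G],
      (HowieProperty G ↔
        ∀ H : Subgroup G, H.FG → (∀ f : H →* Multiplicative ℤ, f = 1) → HowieProperty H) ∧
      (∀ (N : Subgroup G) [N.Normal],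
        (∀ H : Subgroup (G ⧸ N), H.FG → H ≠ ⊥ →
          ∃ θ : H →* Multiplicative ℤ, Function.Surjective θ) →
        HowieProperty N → HowieProperty G) ∧
      ((∀ H : Subgroup G, H.FG →
          (∀ a ∈ H, ∀ b ∈ H, a * b = b * a) ∨
            ∃ θ : H →* Multiplicative ℤ, Function.Surjective θ) →
        HowieProperty G) :=
  fun _ _ => ⟨howieProperty_iff_fg_nonindicable,
    fun N _ hLI hN => howieProperty_of_locallyIndicable_quotient N hLI hN,
    fun h => howieProperty_of_fg_abelian_or_indicable h⟩

end Vale.Agent.Results.P174.A0_CriterionAndClasses
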