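import Vale.Agent.H47.Howie.Abelian

/-!
# Howie's conjecture for groups whose finitely generated subgroups are abelian or indicable

Let `G` be a group in which every finitely generated subgroup is abelian or admits a surjective
homomorphism onto `ℤ`.  Then every nonsingular finite system of equations over `G` is solvable
over `G`.  The class contains all locally indicable groups, all abelian groups, and all groups
with an abelian normal subgroup whose quotient is locally indicable.
-/

namespace Vale.Agent.Results.P174.A_AbelianOrIndicable

open Vale.Agent.H47.Howie

universe u

theorem result :
    ∀ (G : Type u) [Group G],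
      (∀ H : Subgroup G, H.FG →
        (∀ a ∈ H, ∀ b ∈ H, a * b = b * a) ∨
          ∃ θ : H →* Multiplicative ℤ, Function.Surjective θ) →
      ∀ (m n : ℕ) (w : Fin m → Monoid.Coprod G (FreeGroup (Fin n))),
        IsNonsingular w → IsSolvableOver w :=
  fun _ _ h => howieProperty_of_fg_abelian_or_indicable h

end Vale.Agent.Results.P174.A_AbelianOrIndicable
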