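import Vale.Agent.H47.Howie.Tower

/-!
# Howie's conjecture passes to extensions with locally indicable quotient

Let `N` be a normal subgroup of a group `G` such that `G ⧸ N` is locally indicable, i.e. every
nontrivial finitely generated subgroup of `G ⧸ N` maps onto `ℤ`.  If every nonsingular finite
system of equations over `N` is solvable over `N`, then every nonsingular finite system of
equations over `G` is solvable over `G`.  For `N = 1` this is Howie's theorem for locally
indicable groups.
-/

namespace Vale.Agent.Results.P174.A_ExtLocallyIndicable

open Vale.Agent.H47.Howie

universe u

theorem result :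
    ∀ (G : Type u) [Group G] (N : Subgroup G) [N.Normal],
      (∀ H : Subgroup (G ⧸ N), H.FG → H ≠ ⊥ →
        ∃ θ : H →* Multiplicative ℤ, Function.Surjective θ) →
      HowieProperty N → HowieProperty G :=
  fun _ _ N _ hLI hN => howieProperty_of_locallyIndicable_quotient N hLI hN

end Vale.Agent.Results.P174.A_ExtLocallyIndicable
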