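import Vale.Agent.H47.Howie.Tower

/-!
# Howie's conjecture for a group is decided by its finitely generated subgroups with no
nontrivial homomorphism to the integers

For every group `G`: every nonsingular finite system of equations over `G` is solvable over `G`
if and only if the same holds over every finitely generated subgroup `H` of `G` that admits no
nontrivial homomorphism to `ℤ` (i.e. has finite abelianization).
-/

namespace Vale.Agent.Results.P174.A_FgNoMapToZCriterion

open Vale.Agent.H47.Howie

universe u

theorem result :
    ∀ (G : Type u) [Group G],
      HowieProperty G ↔
        ∀ H : Subgroup G, H.FG → (∀ f : H →* Multiplicative ℤ, f = 1) → HowieProperty H :=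
  fun _ _ => howieProperty_iff_fg_nonindicable

end Vale.Agent.Results.P174.A_FgNoMapToZCriterion
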